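import Vale.Agent.P028.H530.Delta
import Vale.Agent.P028.H132.SameFutH
import Vale.Agent.P028.R367.LemH
import Vale.Agent.P028.H383.Sym
import Vale.Agent.P028.R226.Near
attribute [-instance] ProperSMul.toContinuousSMul IsTopologicalTorsor.toContinuousSMul IdemSemiring.toCanonicallyOrderedAdd IdemSemiring.toMulLeftMono IdemSemiring.toMulRightMono AddQuantale.instAddLeftMono AddQuantale.instAddRightMono Quantale.instMulLeftMono Quantale.instMulRightMono FiniteDimensional.rclike_to_real IsScalarTower.complexToReal FiniteDimensional.complexToReal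

/-!
# The pairs with the same future
-/

namespace Vale.P028.SK

open Finset CF RN H669 RK

variable {g : Cfg}

/-! ### The stages are strictly decreasing -/

theorem JJ_sq_le (hJ : JsOK g.K g.Js) (hX : g.Js ≤ g.X) {j : ℕ} (h1 : 1 ≤ j) (hj : j < nst g) :
    JJ g (j + 1) ^ 2 ≤ JJ g j := by
  rcases le_max_iff.1 (JJ_le_sqrt hJ hX h1) with h | h
  · exact absurd h (not_le.2 (lt_JJ_of_lt hJ hX h1 hj))
  · have h2 : 0 ≤ JJ g j := by linarith [one_le_JJ g j]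
    have h3 : 0 ≤ JJ g (j + 1) := by linarith [one_le_JJ g (j + 1)]
    calc JJ g (j + 1) ^ 2 ≤ Real.sqrt (JJ g j) ^ 2 := pow_le_pow_left₀ h3 h 2
      _ = JJ g j := Real.sq_sqrt h2

theorem z_lt_succ (hJ : JsOK g.K g.Js) (hX : g.Js ≤ g.X) {j : ℕ} (h1 : 1 ≤ j)
    (hj : j < nst g) : z g (j + 1) < z g j := by
  have h2 := JJ_sq_le hJ hX h1 hj
  have h3 : 4 ≤ JJ g (j + 1) := hJ.1.trans (Js_le_JJ hJ hX _)
  have hC := g.K.C2_ge
  have h4 : (4 : ℝ) ≤ JJ g (j + 1) ^ g.K.C2 := by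
    calc (4 : ℝ) ≤ JJ g (j + 1) ^ (1 : ℝ) := by rw [Real.rpow_one]; exact h3
      _ ≤ _ := Real.rpow_le_rpow_of_exponent_le (by linarith) hC
  have h5 : (JJ g (j + 1) ^ g.K.C2) ^ 2 ≤ JJ g j ^ g.K.C2 := by
    calc (JJ g (j + 1) ^ g.K.C2) ^ 2 = (JJ g (j + 1) ^ 2) ^ g.K.C2 := by
          rw [← Real.rpow_natCast, ← Real.rpow_mul (by linarith), mul_comm,
            Real.rpow_mul (by linarith), Real.rpow_natCast]
      _ ≤ _ := Real.rpow_le_rpow (by positivity) h2 (by linarith)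
  have h6 : JJ g (j + 1) ^ g.K.C2 + 1 ≤ JJ g j ^ g.K.C2 := by nlinarith
  have h7 : ⌊JJ g (j + 1) ^ g.K.C2 + 1⌋₊ ≤ ⌊JJ g j ^ g.K.C2⌋₊ := Nat.floor_le_floor h6
  rw [Nat.floor_add_one (by linarith)] at h7
  unfold z
  omega

theorem z_strict (hJ : JsOK g.K g.Js) (hX : g.Js ≤ g.X) {i j : ℕ} (h1 : 1 ≤ i) (hij : i < j)
    (hj : j ≤ nst g) : z g j < z g i :=
  lt_of_le_of_lt (z_anti g (show i + 1 ≤ j by omega)) (z_lt_succ hJ hX h1 (by omega))

/-! ### Symmetry and uniqueness of the starts -/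

theorem TAs.swap (hJ : JsOK g.K g.Js) (hX : g.Js ≤ g.X) (hV : g.V ⊆ Icc 1 (N g)) {i q r : ℕ}
    {n : ℤ} (hq : q ∈ g.V) (hr : r ∈ g.V) (h : TAs g i q r n) : TAs g i r q (-n) := by
  have hz : zs g ≤ z g i := zs_le_z hJ hX i
  have hc := h.1.2.2.1
  have h1 := h.1.swap hr
  have hc' := h1.2.2.1
  obtain ⟨e1, e2, -⟩ := clean_cofac hV hz hq hr hc
  obtain ⟨e3, e4, -⟩ := clean_cofac hV hz hr hq hc'
  refine ⟨h1, ?_, ?_⟩
  · rw [e2, h.2.2] at e3
    exact (Nat.eq_of_mul_eq_mul_left (M_pos g i q) e3).symm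
  · rw [e1, h.2.1] at e4
    exact (Nat.eq_of_mul_eq_mul_left (M_pos g i r) e4).symm

/-- a pair starts at one stage only -/
theorem TAs_unique (hJ : JsOK g.K g.Js) (hX : g.Js ≤ g.X) (hV : g.V ⊆ Icc 1 (N g))
    (hρ : g.K.P.ρ0 ≤ 1 / 4) {i i' q r : ℕ} {n n' : ℤ} (hi : 1 ≤ i) (hii : i < i')
    (hq : q ∈ g.V) (hr : r ∈ g.V) (hn : n ∈ Sh g q r) (hn' : n' ∈ Sh g q r)
    (h : TAs g i q r n) (h' : TAs g i' q r n') : False := by
  have h1 := Sh_card ((Dl_le_rho0 hJ hX hV hi hq hr h).trans hρ)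
  have h2 : n = n' := card_le_one.1 h1 _ hn _ hn'
  subst h2
  exact h'.1.2.1 i hi (by omega) h.1.1

/-- the stage of a start is below `N` -/
theorem TAs_pos (hJ : JsOK g.K g.Js) (hX : g.Js ≤ g.X) (hV : g.V ⊆ Icc 1 (N g)) {i q r : ℕ}
    {n : ℤ} (hq : q ∈ g.V) (hr : r ∈ g.V) (hne : r ≠ q) (h : TAs g i q r n) : z g i < N g := by
  by_contra hcon
  push Not at hcon
  have h1 := h.sf hJ hX hV hq hr
  refine hne (wo_inj hq h1.1 ?_).symm
  funext j
  exact h1.2 j (by omega)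

/-- a start with the same future makes one of the two moduli new -/
theorem TAs_new {i q r : ℕ} {n : ℤ} (hi : 1 ≤ i) (h : TAs g i q r n) : Nw g i q ∨ Nw g i r := by
  obtain ⟨F, b, G, b', h1, h2, -, h4⟩ := start_new hi h.1
  rcases h4 with h4 | h4
  · exact Or.inl ⟨hi, F, b, h1, h4⟩
  · exact Or.inr ⟨hi, G, b', h2, h4⟩

end Vale.P028.SK
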