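import Vale.Agent.P028.H530.SF2
attribute [-instance] ProperSMul.toContinuousSMul IsTopologicalTorsor.toContinuousSMul IdemSemiring.toCanonicallyOrderedAdd IdemSemiring.toMulLeftMono IdemSemiring.toMulRightMono AddQuantale.instAddLeftMono AddQuantale.instAddRightMono Quantale.instMulLeftMono Quantale.instMulRightMono FiniteDimensional.rclike_to_real IsScalarTower.complexToReal FiniteDimensional.complexToReal

/-!
# The pairs with the same future: the bound, outside the exceptional pairs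
-/

namespace Vale.P028.SK

open Finset CF RN H669 RK

variable {g : Cfg}

open Classical in
/-- the indicator of the words of the moduli in `S` -/
noncomputable def iW (g : Cfg) (S : Finset ℕ) (b : ℕ × ℕ) (ω : Fin (N g) → Fin (Eb g + 1)) : ℝ :=
  if nu g b ω ∈ S then 1 else 0

theorem iW_nonneg (S : Finset ℕ) (b : ℕ × ℕ) (ω : Fin (N g) → Fin (Eb g + 1)) :
    0 ≤ iW g S b ω := by
  unfold iW
  split_ifs
  · exact zero_le_one
  · exact le_rfl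

theorem iW_sq (S : Finset ℕ) (b : ℕ × ℕ) (ω : Fin (N g) → Fin (Eb g + 1)) :
    iW g S b ω ^ 2 = iW g S b ω := by
  unfold iW
  split_ifs <;> norm_num

theorem iW_KT (S : Finset ℕ) (T : ℕ → ℕ → ℝ) (b : ℕ × ℕ)
    (ω w : Fin (N g) → Fin (Eb g + 1)) :
    iW g S b ω * (iW g S b w * KT g S S T b ω w) = KT g S S T b ω w := by
  unfold iW KT
  by_cases h1 : nu g b ω ∈ S
  · by_cases h2 : nu g b w ∈ S
    · simp [h1, h2]
    · simp [h2]
  · simp [h1]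

theorem kP_ChW (hJ : JsOK g.K g.Js) (hX : g.Js ≤ g.X) (hV : g.V ⊆ Icc 1 (N g))
    (hρ : g.K.P.ρ0 ≤ 1 / 4) {δ : ℕ → ℕ → ℝ} {R : ℕ → ℕ → Prop} {S : Finset ℕ}
    (hS : S ⊆ g.V) {b : ℕ × ℕ} {a : ℕ} {ω w : Fin (N g) → Fin (Eb g + 1)}
    (h : kP g δ R S b a ω w ≠ 0) : a ∈ ChW g S b ω ∨ a ∈ ChW g S b w := by
  obtain ⟨i, n, H⟩ := kP_data hJ hX hV hρ hS h
  unfold ChW
  rcases TAs_new H.one_le H.ta with h1 | h1
  · left
    rw [if_pos H.mq]
    exact mem_NwP.2 ⟨i, H.one_le, H.le, h1, H.pos⟩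
  · right
    rw [if_pos H.mr]
    exact mem_NwP.2 ⟨i, H.one_le, H.le, h1, H.pos⟩

/-- the kernel is at most the later payments of both words -/
theorem kP_Vt (hJ : JsOK g.K g.Js) (hX : g.Js ≤ g.X) (hV : g.V ⊆ Icc 1 (N g))
    (hρ : g.K.P.ρ0 ≤ 1 / 4) {c1 c : ℝ} (h1 : 0 < c1) (h1' : c1 ≤ 1) (hc : 0 ≤ c) (hc1 : c ≤ 1)
    (hz : 1 ≤ c1 * zs g) {R : ℕ → ℕ → Prop} {S : Finset ℕ}
    (hS : S ⊆ g.V) (b : ℕ × ℕ) (a : ℕ) (ω w : Fin (N g) → Fin (Eb g + 1)) :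
    (1 - c * c1 / 8) * kP g (dd g c1 c) R S b a ω w ≤
        Vt (c * c1 / 8) (Pyw g c1 (nu g b ω)) (ChW g S b ω) a ∧
      (1 - c * c1 / 8) * kP g (dd g c1 c) R S b a ω w ≤
        Vt (c * c1 / 8) (Pyw g c1 (nu g b w)) (ChW g S b w) a := by
  have hδ : Om (dd g c1 c) := Om_dd h1.le hc hc1
  have hcc : c * c1 ≤ 1 := mul_le_one₀ hc1 h1.le h1'
  have hcc0 : 0 ≤ c * c1 := mul_nonneg hc h1.le
  have h1κ : 0 ≤ 1 - c * c1 / 8 := by linarith
  by_cases h : kP g (dd g c1 c) R S b a ω w = 0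
  · rw [h, mul_zero]
    exact ⟨(Vt_bounds (by positivity) (by linarith) a).1,
      (Vt_bounds (by positivity) (by linarith) a).1⟩
  · obtain ⟨i, n, H⟩ := kP_data hJ hX hV hρ hS h
    rw [H.eq]
    obtain ⟨h2, h3⟩ := kS_le_WG (i := i) hJ hX hV hδ (hS H.mq) (hS H.mr)
    have h4 := WG_le_Vt h1 h1' hc hc1 hz (hS H.mq) (N g - z g i)
    have h5 := WG_le_Vt h1 h1' hc hc1 hz (hS H.mr) (N g - z g i)
    rw [H.pos] at h2 h3 h4 h5
    unfold ChW
    rw [if_pos H.mq, if_pos H.mr]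
    exact ⟨(mul_le_mul_of_nonneg_left h2 h1κ).trans h4,
      (mul_le_mul_of_nonneg_left h3 h1κ).trans h5⟩

/-- (H) for the words -/
theorem kP_H1 (hJ : JsOK g.K g.Js) (hX : g.Js ≤ g.X) (hV : g.V ⊆ Icc 1 (N g))
    (hρ : g.K.P.ρ0 ≤ 1 / 4) {δ : ℕ → ℕ → ℝ} {R : ℕ → ℕ → Prop} (hR : HypH g R) {S : Finset ℕ}
    (hS : S ⊆ g.V) {b : ℕ × ℕ} {a a' : ℕ} {ω w w' : Fin (N g) → Fin (Eb g + 1)} (haa : a < a')
    (h : kP g δ R S b a ω w ≠ 0) (h' : kP g δ R S b a' ω w' ≠ 0)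
    (hc : ∀ s ∈ ChW g S b ω, a < s → a' < s) : ∀ s ∈ ChW g S b w, a < s → a' < s := by
  obtain ⟨i, n, H⟩ := kP_data hJ hX hV hρ hS h
  obtain ⟨i', n', H'⟩ := kP_data hJ hX hV hρ hS h'
  have hii : i < i' := by
    by_contra hcon
    have h3 := z_anti g (show i' ≤ i by omega)
    have h4 := H.pos
    have h5 := H'.pos
    omega
  have h6 := hH_core hJ hX hR H.one_le H'.le hii H.lt (hS H.mq) (hS H.mr) (hS H'.mr) H.sh H'.sh
    H.ta H'.ta H'.nq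
  rw [H.pos, H'.pos] at h6
  unfold ChW at hc ⊢
  rw [if_pos H.mq] at hc
  rw [if_pos H.mr]
  exact h6 hc

theorem kP_H2 (hJ : JsOK g.K g.Js) (hX : g.Js ≤ g.X) (hV : g.V ⊆ Icc 1 (N g))
    (hρ : g.K.P.ρ0 ≤ 1 / 4) {δ : ℕ → ℕ → ℝ} {R : ℕ → ℕ → Prop} (hR : HypH g R) {S : Finset ℕ}
    (hS : S ⊆ g.V) {b : ℕ × ℕ} {a a' : ℕ} {ω w w' : Fin (N g) → Fin (Eb g + 1)} (haa : a < a')
    (h : kP g δ R S b a w ω ≠ 0) (h' : kP g δ R S b a' w' ω ≠ 0)
    (hc : ∀ s ∈ ChW g S b ω, a < s → a' < s) : ∀ s ∈ ChW g S b w, a < s → a' < s := by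
  obtain ⟨i, n, H⟩ := kP_data hJ hX hV hρ hS h
  obtain ⟨i', n', H'⟩ := kP_data hJ hX hV hρ hS h'
  obtain ⟨s1, t1⟩ := H.swap hJ hX hV hS
  obtain ⟨s2, t2⟩ := H'.swap hJ hX hV hS
  have hii : i < i' := by
    by_contra hcon
    have h3 := z_anti g (show i' ≤ i by omega)
    have h4 := H.pos
    have h5 := H'.pos
    omega
  have h6 := hH_core hJ hX hR H.one_le H'.le hii H.lt (hS H.mr) (hS H.mq) (hS H'.mq) s1 s2
    t1 t2 H'.nr
  rw [H.pos, H'.pos] at h6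
  unfold ChW at hc ⊢
  rw [if_pos H.mr] at hc
  rw [if_pos H.mq]
  exact h6 hc

/-- the form at the stages and the form at the positions -/
theorem sum_stages (δ : ℕ → ℕ → ℝ) (R : ℕ → ℕ → Prop) (S : Finset ℕ) (b : ℕ × ℕ)
    (π : Fin (N g) → Fin (Eb g + 1) → ℝ) :
    ∑ i ∈ Icc 1 (nst g), Ex π
      (fun ω => cE π (N g - z g i) (fun w => KT g S S (kG g δ R i) b ω w) ω) =
    ∑ a ∈ range (N g + 1), Ex π (fun ω => cE π a
      (fun w => iW g S b ω * (iW g S b w * kP g δ R S b a ω w)) ω) := by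
  rw [← sum_fiberwise_of_maps_to (s := Icc 1 (nst g)) (t := range (N g + 1))
    (g := fun i => N g - z g i) (fun i _ => by
      rw [mem_range]
      omega)]
  refine sum_congr rfl fun a _ => ?_
  have e1 : ∀ i ∈ (Icc 1 (nst g)).filter (fun i => N g - z g i = a), Ex π
      (fun ω => cE π (N g - z g i) (fun w => KT g S S (kG g δ R i) b ω w) ω) =
      Ex π (fun ω => cE π a (fun w => KT g S S (kG g δ R i) b ω w) ω) := by
    intro i hi
    rw [(mem_filter.1 hi).2]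
  rw [sum_congr rfl e1, Ex_sum]
  congr 1
  funext ω
  rw [← cE_sum']
  congr 1
  funext w
  unfold kP stp
  rw [mul_sum, mul_sum]
  exact sum_congr rfl fun i _ => (iW_KT _ _ _ _ _).symm

theorem cE_const_mul {L : Type*} [Fintype L] {n : ℕ} (π : Fin n → L → ℝ) (s : ℕ) (c : ℝ)
    (F : (Fin n → L) → ℝ) (ω : Fin n → L) :
    cE π s (fun w => c * F w) ω = c * cE π s F ω := by
  unfold cE
  rw [mul_sum]
  exact sum_congr rfl fun z _ => by ring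

theorem Ex_const_mul {L : Type*} [Fintype L] {n : ℕ} (π : Fin n → L → ℝ) (c : ℝ)
    (F : (Fin n → L) → ℝ) : Ex π (fun w => c * F w) = c * Ex π F := by
  unfold Ex
  rw [mul_sum]
  exact sum_congr rfl fun z _ => by ring

open Classical in
/-- **The pairs with the same future**, outside the exceptional pairs. -/
theorem sf_main (hJ : JsOK g.K g.Js) (hX : g.Js ≤ g.X) (hV : g.V ⊆ Icc 1 (N g))
    (hρ : g.K.P.ρ0 ≤ 1 / 4) {c1 c : ℝ} (h1 : 0 < c1) (h1e : c1 * Real.exp 24 ≤ 1) (hc : 0 < c)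
    (hc1 : c ≤ 1) (hz : 4 ≤ c1 * zs g) {R : ℕ → ℕ → Prop} (hR : HypH g R) {S : Finset ℕ}
    (hS : S ⊆ g.V) :
    ∑ i ∈ Icc 1 (nst g), ∑ q ∈ S, f g q * ∑ r ∈ S.filter (fun r => Sf g i q r),
      Wt g i r * kG g (dd g c1 c) R i q r ≤ 2 * (6100 / (c * c1 / 8)) * ∑ q ∈ S, f g q := by
  have h1' : c1 ≤ 1 := by
    have h2 : (1 : ℝ) ≤ Real.exp 24 := Real.one_le_exp (by norm_num)
    nlinarith
  have hδ : Om (dd g c1 c) := Om_dd h1.le hc.le hc1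
  have hcc : c * c1 ≤ 1 := mul_le_one₀ hc1 h1.le h1'
  have hcc0 : 0 < c * c1 := mul_pos hc h1
  refine base_reduce_n hV (Icc 1 (nst g)) (fun i _ => zs_le_z hJ hX i) hS
    (T := kG g (dd g c1 c) R) (fun i q r => kG_nonneg hδ R i q r) fun q₀ hq₀ => ?_
  rw [sum_stages]
  have H := sys_base hJ hX hV h1 h1e hc hc1 hz hS hq₀
  set κ := c * c1 / 8 with hκ
  have hκ0 : 0 < κ := by positivity
  have hκ2 : 1 / 2 ≤ 1 - κ := by linarith
  have h1κ : 0 ≤ 1 - κ := by linarith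
  have hne : ∀ {a ω w}, (1 - κ) * kP g (dd g c1 c) R S (bl g q₀) a ω w ≠ 0 →
      kP g (dd g c1 c) R S (bl g q₀) a ω w ≠ 0 := fun {a ω w} h h' => h (by rw [h', mul_zero])
  have E := energyH (K := fun a ω w => (1 - κ) * kP g (dd g c1 c) R S (bl g q₀) a ω w)
    (s₁ := iW g S (bl g q₀))
    (s₂ := iW g S (bl g q₀)) H (fun i q r => mul_nonneg h1κ (kP_nonneg hδ R S _ i q r))
    (fun a ω z h => kP_ChW hJ hX hV hρ hS (hne h))
    (fun a ω z => (kP_Vt hJ hX hV hρ h1 h1' hc.le hc1 (by linarith) hS _ _ _ _).1)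
    (fun a ω z => (kP_Vt hJ hX hV hρ h1 h1' hc.le hc1 (by linarith) hS _ _ _ _).2)
    (fun a a' ω z z' haa h h' _ _ hc => kP_H1 hJ hX hV hρ hR hS haa (hne h) (hne h') hc)
    (fun a a' ω z z' haa h h' _ _ hc => kP_H2 hJ hX hV hρ hR hS haa (hne h) (hne h') hc)
    (iW_nonneg S _) (iW_nonneg S _)
  have e1 : (fun ω => iW g S (bl g q₀) ω ^ 2) = fun ω => iW g S (bl g q₀) ω := by
    funext ω
    exact iW_sq _ _ _
  have e2 : 0 ≤ Ex (wn g q₀) (fun ω => iW g S (bl g q₀) ω) :=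
    Ex_nonneg (wn_nonneg q₀) fun ω => iW_nonneg _ _ _
  rw [e1, Real.mul_self_sqrt e2] at E
  set A := ∑ a ∈ range (N g + 1), Ex (wn g q₀) (fun ω => cE (wn g q₀) a
    (fun w => iW g S (bl g q₀) ω * (iW g S (bl g q₀) w *
      kP g (dd g c1 c) R S (bl g q₀) a ω w)) ω) with hA
  set B := Ex (wn g q₀) (fun ω => iW g S (bl g q₀) ω) with hB
  have e4 : ∑ a ∈ range (N g + 1), Ex (wn g q₀) (fun ω => cE (wn g q₀) a
      (fun w => iW g S (bl g q₀) ω * (iW g S (bl g q₀) w *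
        ((1 - κ) * kP g (dd g c1 c) R S (bl g q₀) a ω w))) ω) = (1 - κ) * A := by
    rw [hA, mul_sum]
    refine sum_congr rfl fun a _ => ?_
    rw [← Ex_const_mul]
    congr 1
    funext ω
    rw [← cE_const_mul]
    congr 1
    funext w
    ring
  have hA0 : 0 ≤ A := sum_nonneg fun a _ => Ex_nonneg (wn_nonneg q₀) fun ω =>
    sum_nonneg fun z _ => mul_nonneg (Pr_nonneg (wn_nonneg q₀) _)
      (mul_nonneg (iW_nonneg _ _ _) (mul_nonneg (iW_nonneg _ _ _) (kP_nonneg hδ R S _ _ _ _)))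
  have E' : (1 - κ) * A ≤ 6100 / κ * B := by
    rw [← e4]
    exact E
  change A ≤ 2 * (6100 / κ) * B
  have h3 : 1 / 2 * A ≤ (1 - κ) * A := mul_le_mul_of_nonneg_right hκ2 hA0
  have h4 : 1 / 2 * A ≤ 6100 / κ * B := h3.trans E'
  calc A = 2 * (1 / 2 * A) := by ring
    _ ≤ 2 * (6100 / κ * B) := mul_le_mul_of_nonneg_left h4 (by norm_num)
    _ = 2 * (6100 / κ) * B := by ring

end Vale.P028.SK
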